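import Vale.Agent.P325.H111.K2.Cube

/-!
# Characters, Bessel, and the vector valued Bonami lemma
-/

namespace Vale.Agent.P325.H485

open Finset Vale.Agent.P325.K2

section

variable {ι : Type} [Fintype ι] [DecidableEq ι]

theorem sg_not (b : Bool) : sg (!b) = - sg b := by cases b <;> simp [sg]

theorem sg_sq (b : Bool) : sg b ^ 2 = 1 := by cases b <;> simp [sg]

theorem sg_mul_self (b : Bool) : sg b * sg b = 1 := by cases b <;> simp [sg]

theorem flp_flp (x : ι → Bool) (i : ι) : flp (flp x i) i = x := by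
  unfold flp
  simp

theorem flp_same (x : ι → Bool) (i : ι) : flp x i i = !x i := by simp [flp]

theorem flp_ne (x : ι → Bool) {i j : ι} (h : j ≠ i) : flp x i j = x j := by simp [flp, h]

/-- The flip of a coordinate as an equivalence. -/
def flpE (i : ι) : (ι → Bool) ≃ (ι → Bool) where
  toFun x := flp x i
  invFun x := flp x i
  left_inv x := flp_flp x i
  right_inv x := flp_flp x i

theorem Ex_flp (i : ι) (f : (ι → Bool) → ℝ) : (Ex fun x => f (flp x i)) = Ex f :=
  Ex_equiv (flpE i) f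

/-- Averaging over one coordinate. -/
theorem Ex_half (i : ι) (f : (ι → Bool) → ℝ) : Ex f = Ex fun x => (f x + f (flp x i)) / 2 := by
  have h : (Ex fun x => (f x + f (flp x i)) / 2) = (Ex f + Ex fun x => f (flp x i)) / 2 := by
    rw [← Ex_add]
    simp only [div_eq_mul_inv]
    exact Ex_mul_const _ _
  rw [h, Ex_flp]
  ring

theorem chi_empty (x : ι → Bool) : chi ∅ x = 1 := by simp [chi]

theorem chi_flp_of_notMem {S : Finset ι} {i : ι} (h : i ∉ S) (x : ι → Bool) :
    chi S (flp x i) = chi S x := by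
  unfold chi
  refine prod_congr rfl fun j hj => ?_
  rw [flp_ne]
  rintro rfl
  exact h hj

theorem chi_insert {S : Finset ι} {i : ι} (h : i ∉ S) (x : ι → Bool) :
    chi (insert i S) x = sg (x i) * chi S x := by
  unfold chi
  rw [prod_insert h]

theorem chi_flp_of_mem {S : Finset ι} {i : ι} (h : i ∈ S) (x : ι → Bool) :
    chi S (flp x i) = - chi S x := by
  have hS : S = insert i (S.erase i) := (insert_erase h).symm
  rw [hS, chi_insert (notMem_erase i S), chi_insert (notMem_erase i S),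
    chi_flp_of_notMem (notMem_erase i S), flp_same, sg_not]
  ring

theorem chi_sq (S : Finset ι) (x : ι → Bool) : chi S x * chi S x = 1 := by
  unfold chi
  rw [← prod_mul_distrib]
  exact prod_eq_one fun i _ => sg_mul_self _

instance : Nonempty (ι → Bool) := ⟨fun _ => true⟩

/-- Orthonormality of the characters. -/
theorem Ex_chi_mul (S T : Finset ι) :
    (Ex fun x => chi S x * chi T x) = if S = T then 1 else 0 := by
  split_ifs with h
  · subst h
    simp only [chi_sq]
    exact Ex_const 1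
  · have hi : ∃ i, (i ∈ S ∧ i ∉ T) ∨ (i ∉ S ∧ i ∈ T) := by
      by_contra hc
      push Not at hc
      apply h
      ext i
      have := hc i
      constructor
      · intro hs
        exact this.1 hs
      · intro ht
        by_contra hs
        exact this.2 hs ht
    obtain ⟨i, hi⟩ := hi
    rw [Ex_half i]
    have h0 : ∀ x : ι → Bool, (chi S x * chi T x + chi S (flp x i) * chi T (flp x i)) / 2 = 0 := by
      intro x
      rcases hi with ⟨h1, h2⟩ | ⟨h1, h2⟩
      · rw [chi_flp_of_mem h1, chi_flp_of_notMem h2]; ring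
      · rw [chi_flp_of_notMem h1, chi_flp_of_mem h2]; ring
    simp only [h0]
    exact Ex_const 0

/-- The inequality of Bessel. -/
theorem bessel (f : (ι → Bool) → ℝ) : ∑ S : Finset ι, fc f S ^ 2 ≤ Ex fun x => f x ^ 2 := by
  have h0 : 0 ≤ Ex fun x => (f x - ∑ S : Finset ι, fc f S * chi S x) ^ 2 :=
    Ex_nonneg fun x => sq_nonneg _
  have h1 : (Ex fun x => (f x - ∑ S : Finset ι, fc f S * chi S x) ^ 2) =
      (Ex fun x => f x ^ 2) - ∑ S : Finset ι, fc f S ^ 2 := by
    have e1 : ∀ x, (f x - ∑ S : Finset ι, fc f S * chi S x) ^ 2 =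
        f x ^ 2 - ∑ S : Finset ι, 2 * fc f S * (f x * chi S x) +
          ∑ S : Finset ι, ∑ T : Finset ι, fc f S * fc f T * (chi S x * chi T x) := by
      intro x
      rw [sub_sq, sq (∑ S : Finset ι, fc f S * chi S x), sum_mul_sum, mul_sum]
      congr 1
      · congr 1
        refine sum_congr rfl fun S _ => ?_
        ring
      · refine sum_congr rfl fun S _ => sum_congr rfl fun T _ => ?_
        ring
    rw [Ex_congr e1, Ex_add, Ex_sub, Ex_sum, Ex_sum]
    have e2 : ∀ S : Finset ι, (Ex fun x => 2 * fc f S * (f x * chi S x)) = 2 * fc f S ^ 2 := by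
      intro S
      rw [Ex_const_mul]
      show 2 * fc f S * fc f S = _
      ring
    have e3 : ∀ S : Finset ι, (Ex fun x => ∑ T : Finset ι, fc f S * fc f T * (chi S x * chi T x)) =
        fc f S ^ 2 := by
      intro S
      rw [Ex_sum]
      simp only [Ex_const_mul, Ex_chi_mul]
      simp [sq]
    rw [sum_congr rfl fun S _ => e2 S, sum_congr rfl fun S _ => e3 S, ← mul_sum]
    ring
  rw [h1] at h0
  linarith

/-- The polynomial with coefficients `c`, restricted to the subsets of `s`, after noise. -/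
def pol (ρ : ℝ) (s : Finset ι) (c : Finset ι → ℝ) (x : ι → Bool) : ℝ :=
  ∑ S ∈ s.powerset, ρ ^ #S * c S * chi S x

theorem pol_insert (ρ : ℝ) {s : Finset ι} {i : ι} (h : i ∉ s) (c : Finset ι → ℝ) (x : ι → Bool) :
    pol ρ (insert i s) c x =
      pol ρ s c x + ρ * sg (x i) * pol ρ s (fun S => c (insert i S)) x := by
  unfold pol
  rw [sum_powerset_insert h]
  congr 1
  rw [mul_sum]
  refine sum_congr rfl fun S hS => ?_
  have hi : i ∉ S := fun hi => h (mem_powerset.1 hS hi)
  rw [card_insert_of_notMem hi, chi_insert hi, pow_succ]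
  ring

theorem pol_flp (ρ : ℝ) {s : Finset ι} {i : ι} (h : i ∉ s) (c : Finset ι → ℝ) (x : ι → Bool) :
    pol ρ s c (flp x i) = pol ρ s c x := by
  unfold pol
  refine sum_congr rfl fun S hS => ?_
  have hi : i ∉ S := fun hi => h (mem_powerset.1 hS hi)
  rw [chi_flp_of_notMem hi]

/-- The inequality of Cauchy and Schwarz for averages. -/
theorem Ex_mul_le (a b : (ι → Bool) → ℝ) (ha : ∀ x, 0 ≤ a x) (hb : ∀ x, 0 ≤ b x) {G H : ℝ}
    (hG : 0 ≤ G) (hH : 0 ≤ H) (h1 : (Ex fun x => a x ^ 2) ≤ G ^ 2)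
    (h2 : (Ex fun x => b x ^ 2) ≤ H ^ 2) : (Ex fun x => a x * b x) ≤ G * H := by
  have hcs : (Ex fun x => a x * b x) ^ 2 ≤ (Ex fun x => a x ^ 2) * Ex fun x => b x ^ 2 := by
    have h := sum_mul_sq_le_sq_mul_sq univ a b
    have hc : (0 : ℝ) < Fintype.card (ι → Bool) := by
      exact_mod_cast Fintype.card_pos
    unfold Ex
    rw [div_pow, div_mul_div_comm, ← sq]
    exact div_le_div_of_nonneg_right h (by positivity)
  have h3 : (Ex fun x => a x * b x) ^ 2 ≤ (G * H) ^ 2 := by
    rw [mul_pow]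
    refine hcs.trans (mul_le_mul h1 h2 (Ex_nonneg fun x => sq_nonneg _) (sq_nonneg _))
  exact le_of_sq_le_sq h3 (mul_nonneg hG hH)
where
  le_of_sq_le_sq {u v : ℝ} (h : u ^ 2 ≤ v ^ 2) (hv : 0 ≤ v) : u ≤ v := by
    exact le_trans (le_abs_self u) (abs_le_of_sq_le_sq h hv)

variable {J : Type} [Fintype J]

theorem bonami_aux (ρ : ℝ) (hρ : 3 * ρ ^ 2 = 1) (s : Finset ι) :
    ∀ c : J → Finset ι → ℝ, (Ex fun x => (∑ j, pol ρ s (c j) x ^ 2) ^ 2) ≤
      (∑ j, ∑ S ∈ s.powerset, c j S ^ 2) ^ 2 := by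
  induction s using Finset.induction_on with
  | empty =>
    intro c
    have h : ∀ x : ι → Bool, (∑ j, pol ρ ∅ (c j) x ^ 2) ^ 2 =
        (∑ j, ∑ S ∈ (∅ : Finset ι).powerset, c j S ^ 2) ^ 2 := by
      intro x
      simp [pol, chi_empty]
    rw [Ex_congr h, Ex_const]
  | insert i s hi ih =>
    intro c
    set c' : J → Finset ι → ℝ := fun j S => c j (insert i S) with hc'
    have hG := ih c
    have hH := ih c'
    set G : ℝ := ∑ j, ∑ S ∈ s.powerset, c j S ^ 2 with hGd
    set H : ℝ := ∑ j, ∑ S ∈ s.powerset, c' j S ^ 2 with hHd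
    have hG0 : 0 ≤ G := sum_nonneg fun j _ => sum_nonneg fun S _ => sq_nonneg _
    have hH0 : 0 ≤ H := sum_nonneg fun j _ => sum_nonneg fun S _ => sq_nonneg _
    have hsum : ∑ j, ∑ S ∈ (insert i s).powerset, c j S ^ 2 = G + H := by
      rw [hGd, hHd, ← sum_add_distrib]
      refine sum_congr rfl fun j _ => ?_
      rw [sum_powerset_insert hi]
    rw [hsum]
    set a : (ι → Bool) → ℝ := fun x => ∑ j, pol ρ s (c j) x ^ 2 with ha
    set b : (ι → Bool) → ℝ := fun x => ∑ j, pol ρ s (c' j) x ^ 2 with hb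
    set d : (ι → Bool) → ℝ := fun x => ∑ j, pol ρ s (c j) x * pol ρ s (c' j) x with hd
    have ha0 : ∀ x, 0 ≤ a x := fun x => sum_nonneg fun j _ => sq_nonneg _
    have hb0 : ∀ x, 0 ≤ b x := fun x => sum_nonneg fun j _ => sq_nonneg _
    have hdab : ∀ x, d x ^ 2 ≤ a x * b x := fun x => sum_mul_sq_le_sq_mul_sq univ _ _
    have haf : ∀ x, a (flp x i) = a x := fun x => by simp only [ha, pol_flp ρ hi]
    have hbf : ∀ x, b (flp x i) = b x := fun x => by simp only [hb, pol_flp ρ hi]
    have hdf : ∀ x, d (flp x i) = d x := fun x => by simp only [hd, pol_flp ρ hi]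
    have hexp : ∀ x, ∑ j, pol ρ (insert i s) (c j) x ^ 2 =
        a x + ρ ^ 2 * b x + 2 * ρ * sg (x i) * d x := by
      intro x
      have e : ∀ j, pol ρ (insert i s) (c j) x ^ 2 =
          pol ρ s (c j) x ^ 2 + ρ ^ 2 * pol ρ s (c' j) x ^ 2 +
            2 * ρ * sg (x i) * (pol ρ s (c j) x * pol ρ s (c' j) x) := by
        intro j
        rw [pol_insert ρ hi]
        have := sg_sq (x i)
        simp only [hc']
        linear_combination (ρ ^ 2 * pol ρ s (fun S => c j (insert i S)) x ^ 2) * this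
      rw [sum_congr rfl fun j _ => e j, sum_add_distrib, sum_add_distrib, ← mul_sum, ← mul_sum]
    have hle : ∀ x, ((∑ j, pol ρ (insert i s) (c j) x ^ 2) ^ 2 +
        (∑ j, pol ρ (insert i s) (c j) (flp x i) ^ 2) ^ 2) / 2 ≤
          a x ^ 2 + 2 * (a x * b x) + b x ^ 2 := by
      intro x
      rw [hexp, hexp, haf, hbf, hdf, flp_same, sg_not]
      have h1 := sg_sq (x i)
      have h2 : ((a x + ρ ^ 2 * b x + 2 * ρ * sg (x i) * d x) ^ 2 +
          (a x + ρ ^ 2 * b x + 2 * ρ * -sg (x i) * d x) ^ 2) / 2 =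
            (a x + ρ ^ 2 * b x) ^ 2 + 4 * ρ ^ 2 * d x ^ 2 := by
        linear_combination (4 * ρ ^ 2 * d x ^ 2) * h1
      rw [h2]
      have h3 : ρ ^ 2 = 1 / 3 := by linarith
      rw [h3]
      have h4 := hdab x
      have h5 := mul_nonneg (ha0 x) (hb0 x)
      nlinarith [sq_nonneg (b x), hb0 x, ha0 x]
    calc (Ex fun x => (∑ j, pol ρ (insert i s) (c j) x ^ 2) ^ 2)
        = Ex fun x => ((∑ j, pol ρ (insert i s) (c j) x ^ 2) ^ 2 +
            (∑ j, pol ρ (insert i s) (c j) (flp x i) ^ 2) ^ 2) / 2 :=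
          Ex_half i fun x => (∑ j, pol ρ (insert i s) (c j) x ^ 2) ^ 2
      _ ≤ Ex fun x => a x ^ 2 + 2 * (a x * b x) + b x ^ 2 := Ex_mono hle
      _ = (Ex fun x => a x ^ 2) + 2 * (Ex fun x => a x * b x) + Ex fun x => b x ^ 2 := by
          rw [Ex_add, Ex_add, Ex_const_mul]
      _ ≤ G ^ 2 + 2 * (G * H) + H ^ 2 := by
          have := Ex_mul_le a b ha0 hb0 hG0 hH0 hG hH
          linarith
      _ = (G + H) ^ 2 := by ring

/-- The vector valued Bonami lemma. -/
theorem bonami_vec (F : J → (ι → Bool) → ℝ) :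
    (Ex fun x => (∑ j, (∑ S : Finset ι, (1 / Real.sqrt 3) ^ #S * fc (F j) S * chi S x) ^ 2) ^ 2) ≤
      (Ex fun x => ∑ j, F j x ^ 2) ^ 2 := by
  have hρ : 3 * (1 / Real.sqrt 3) ^ 2 = 1 := by
    rw [div_pow, one_pow, Real.sq_sqrt (by norm_num)]
    norm_num
  have h := bonami_aux (1 / Real.sqrt 3) hρ (univ : Finset ι) fun j => fc (F j)
  simp only [pol, powerset_univ] at h
  refine h.trans ?_
  refine pow_le_pow_left₀ (sum_nonneg fun j _ => sum_nonneg fun S _ => sq_nonneg _) ?_ 2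
  rw [Ex_sum]
  exact sum_le_sum fun j _ => bessel (F j)

end

end Vale.Agent.P325.H485
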