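import Vale.Agent.P325.H111.K2.Stmts
import Vale.Agent.P325.H485.Bonami

/-!
# The structure theorem from its two parts
-/

namespace Vale.Agent.P325.H485

open Finset Vale.Agent.P325.K2

/-- Package F1c. -/
theorem bonami : BonamiThm := by
  intro ι J _ _ _ F
  exact bonami_vec F

section

variable {ι G : Type} [Fintype ι] [DecidableEq ι] [Fintype G] [DecidableEq G]

theorem sqrt_sum_le {κ : Type} (s : Finset κ) (u : κ → ℝ) (hu : ∀ g, 0 ≤ u g) :
    Real.sqrt (∑ g ∈ s, u g) ≤ ∑ g ∈ s, Real.sqrt (u g) := by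
  classical
  induction s using Finset.induction_on with
  | empty => simp
  | insert g s hg ih =>
    rw [sum_insert hg, sum_insert hg]
    calc Real.sqrt (u g + ∑ x ∈ s, u x) ≤ Real.sqrt (u g) + Real.sqrt (∑ x ∈ s, u x) := by
          rw [Real.sqrt_le_left (by positivity)]
          have h1 := Real.sq_sqrt (hu g)
          have h2 := Real.sq_sqrt (sum_nonneg fun x (_ : x ∈ s) => hu x)
          nlinarith [Real.sqrt_nonneg (u g), Real.sqrt_nonneg (∑ x ∈ s, u x),
            mul_nonneg (Real.sqrt_nonneg (u g)) (Real.sqrt_nonneg (∑ x ∈ s, u x))]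
      _ ≤ _ := by linarith

/-- The expected size of the gradient is at most the energy. -/
theorem grad_le_energy (grp : ι → G) (f : (ι → Bool) → ℝ) :
    (Ex fun x => Real.sqrt #(piv f x)) ≤ energy grp f := by
  classical
  unfold energy
  refine Ex_mono fun x => ?_
  have h : (#(piv f x) : ℝ) = ∑ g : G, (#{i ∈ piv f x | grp i = g} : ℝ) := by
    have := card_eq_sum_card_fiberwise (f := grp) (s := piv f x) (t := univ) (fun _ _ => by simp)
    exact_mod_cast this
  rw [h]
  refine (sqrt_sum_le univ _ fun g => Nat.cast_nonneg _).trans (le_of_eq ?_)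
  refine sum_congr rfl fun g _ => ?_
  congr 3
  ext i
  simp only [mem_filter]

theorem energy_nonneg (grp : ι → G) (f : (ι → Bool) → ℝ) : 0 ≤ energy grp f :=
  Ex_nonneg fun x => sum_nonneg fun g _ => Real.sqrt_nonneg _

end

/-- Package F1d: the structure theorem from its two parts. -/
theorem struct_of (hT : TailThm) (hL : LowThm) : StructThm := by
  classical
  obtain ⟨C1, hC1⟩ := hT
  obtain ⟨C2, hC20, hC2⟩ := hL
  intro E ε hε
  set E0 : ℝ := max E 0 with hE0
  have hE00 : 0 ≤ E0 := le_max_right _ _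
  -- the degree
  obtain ⟨k, hk1, hk⟩ : ∃ k : ℕ, 1 ≤ k ∧ |C1| * E0 / Real.sqrt k ≤ ε / 2 := by
    obtain ⟨m, hm⟩ := exists_nat_ge ((2 * |C1| * E0 / ε) ^ 2)
    refine ⟨m + 1, Nat.le_add_left 1 m, ?_⟩
    have hpos : 0 < Real.sqrt ((m + 1 : ℕ) : ℝ) := Real.sqrt_pos.2 (by positivity)
    rw [div_le_iff₀ hpos]
    have h1 : 2 * |C1| * E0 / ε ≤ Real.sqrt ((m + 1 : ℕ) : ℝ) := by
      apply Real.le_sqrt_of_sq_le
      push_cast
      linarith
    rw [div_le_iff₀ hε] at h1
    linarith
  -- the threshold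
  set M : ℝ := C2 * 12 ^ k * E0 + 1 with hM
  have hM0 : 0 < M := by positivity
  refine ⟨(ε / (2 * M)) ^ 2, by positivity, ?_⟩
  intro ι G _ _ _ _ grp f hf hE H hH
  have hEE : energy grp f ≤ E0 := hE.trans (le_max_left _ _)
  have hen := energy_nonneg grp f
  have htail := hC1 ι f hf k hk1
  have hlow := hC2 ι G grp f hf k ((ε / (2 * M)) ^ 2) (by positivity) H fun g hg => (hH g hg).le
  rw [Real.sqrt_sq (by positivity)] at hlow
  -- the tail
  have h1 : (∑ S : Finset ι, if k < #S then fc f S ^ 2 else 0) ≤ ε / 2 := by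
    refine htail.trans (le_trans ?_ hk)
    refine div_le_div_of_nonneg_right ?_ (Real.sqrt_nonneg _)
    have hg := (grad_le_energy grp f).trans hEE
    have hg0 : 0 ≤ Ex fun x => Real.sqrt #(piv f x) := Ex_nonneg fun x => Real.sqrt_nonneg _
    calc C1 * (Ex fun x => Real.sqrt #(piv f x)) ≤ |C1| * (Ex fun x => Real.sqrt #(piv f x)) :=
          mul_le_mul_of_nonneg_right (le_abs_self _) hg0
      _ ≤ |C1| * E0 := mul_le_mul_of_nonneg_left hg (abs_nonneg _)
  -- the low degree part
  have h2 : C2 * 12 ^ k * energy grp f * (ε / (2 * M)) ≤ ε / 2 := by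
    have h3 : C2 * 12 ^ k * energy grp f ≤ M := by
      have : C2 * 12 ^ k * energy grp f ≤ C2 * 12 ^ k * E0 :=
        mul_le_mul_of_nonneg_left hEE (by positivity)
      linarith
    calc C2 * 12 ^ k * energy grp f * (ε / (2 * M)) ≤ M * (ε / (2 * M)) :=
          mul_le_mul_of_nonneg_right h3 (by positivity)
      _ = ε / 2 := by field_simp
  calc Inf f {i | grp i ∈ H}
      ≤ (∑ S : Finset ι, if k < #S then fc f S ^ 2 else 0) +
          ∑ S : Finset ι, if #S ≤ k then (#{i ∈ S | grp i ∈ H} : ℝ) * fc f S ^ 2 else 0 := by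
        unfold Inf
        rw [← sum_add_distrib]
        refine sum_le_sum fun S _ => ?_
        have hs := sq_nonneg (fc f S)
        by_cases hd : Disjoint S ({i | grp i ∈ H} : Finset ι)
        · rw [if_pos hd]
          split_ifs <;> positivity
        · rw [if_neg hd]
          have hc : (1 : ℝ) ≤ #{i ∈ S | grp i ∈ H} := by
            have : 0 < #{i ∈ S | grp i ∈ H} := by
              rw [card_pos]
              rw [not_disjoint_iff] at hd
              obtain ⟨i, hi, hi'⟩ := hd
              exact ⟨i, mem_filter.2 ⟨hi, (mem_filter.1 hi').2⟩⟩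
            exact_mod_cast this
          by_cases hk' : k < #S
          · rw [if_pos hk', if_neg (not_le.2 hk')]
            linarith
          · rw [if_neg hk', if_pos (not_lt.1 hk')]
            nlinarith
    _ ≤ ε / 2 + ε / 2 := add_le_add h1 (hlow.trans h2)
    _ = ε := by ring

end Vale.Agent.P325.H485
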